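import Vale.Agent.P265W27.Main

/-!
# The stable Morse form and the Morse-number form of the Arnold conjecture are false

(1) On every closed smooth manifold `W` the critical sets in the definitions of `Morse(W)` and
`SM(W)` are finite, both minima exist as natural numbers, and `SM(W) ≤ Morse(W)`.
(2) The stable Morse form is false. (3) The Morse-number form is false.
(4) Counterexamples exist in every even dimension `2 n ≥ 6`: the number `N` of all fixed points is
at most `2 ^ (n + 1)`, while `2 ^ (n + 1) + 2 ^ ⌊(n - 2) / 4⌋ ≤ SM(M) ≤ Morse(M)`.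
-/

open Set Manifold Vale.Agent.P265.Loc Vale.Agent.P265W27
open scoped ContDiff

namespace Vale.Agent.Results.P265.AMinima

theorem result :
    (∀ (m : ℕ) (W : Type) [TopologicalSpace W] [T2Space W] [CompactSpace W]
      [ChartedSpace (EuclideanSpace ℝ (Fin m)) W]
      [IsManifold 𝓘(ℝ, EuclideanSpace ℝ (Fin m)) ∞ W],
      MinimaExist (EuclideanSpace ℝ (Fin m)) W) ∧
    ¬ StableMorseForm ∧ ¬ MorseNumberForm ∧
    ∀ n : ℕ, 3 ≤ n →
      ∃ (M : Type) (_ : TopologicalSpace M) (_ : T2Space M) (_ : CompactSpace M)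
        (_ : ConnectedSpace M) (_ : ChartedSpace (EuclideanSpace ℝ (Fin (2 * n))) M)
        (_ : IsManifold 𝓘(ℝ, EuclideanSpace ℝ (Fin (2 * n))) ∞ M)
        (om : FormField (EuclideanSpace ℝ (Fin (2 * n))) M) (H : ℝ → M → ℝ) (φ : ℝ → M → M)
        (N s μ : ℕ), IsSymplectic om ∧ IsHamiltonianFlow om H φ ∧
          NondegFixedPoints (EuclideanSpace ℝ (Fin (2 * n))) (φ 1) ∧
          {x | φ 1 x = x}.encard = N ∧
          IsLeast (stableCounts (EuclideanSpace ℝ (Fin (2 * n))) M) s ∧
          IsLeast (morseCounts (EuclideanSpace ℝ (Fin (2 * n))) M) μ ∧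
          N ≤ 2 ^ (n + 1) ∧ 2 ^ (n + 1) + 2 ^ ((n - 2) / 4) ≤ s ∧ s ≤ μ := by
  obtain ⟨M, _, _, _, _, _, _, om, H, φ, N, s, μ, h1, h2, h3, h4, h5, h6, h7, h8, h9⟩ :=
    counterexample 3 le_rfl
  have h0 : (Fix0 φ).encard ≤ N := (encard_le_encard fun x hx => hx.1).trans h4.le
  refine ⟨fun m W _ _ _ _ _ => ⟨fun f hf => finite_crit_of_subset hf isCompact_univ (subset_univ _),
    fun k F hF => hF.finite, exists_isLeast⟩, fun h => ?_, fun h => ?_, counterexample⟩
  · have h10 : s ≤ N := by exact_mod_cast (h _ M om H φ s h1 h2 h3 h5).trans h0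
    omega
  · have h10 : μ ≤ N := by exact_mod_cast (h _ M om H φ μ h1 h2 h3 h6).trans h0
    omega

end Vale.Agent.Results.P265.AMinima
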